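import Vale.Agent.P042.S.Dich

/-! # P042 X/Dich: major and minor arcs with an exponent that depends only on the degree. -/

namespace Vale.Agent.P042.S

open Finset Polynomial

theorem dichot2 (k₀ : ℕ) : ∃ K : ℕ, ∀ h : ℤ[X], h.natDegree = k₀ → 2 ≤ k₀ → 0 < h.leadingCoeff →
    ∃ D₀ : ℕ, ∀ (n₀ M : ℕ) (D θ : ℝ), 0 < M → 2 ≤ D → D₀ ≤ D →
      (∀ (η : ℝ) (m : ℕ), m ≤ M → ‖∑ n ∈ Ico n₀ m, ee (θ * val h n + η * n)‖ ≤ M / D) ∨
      ∃ (q : ℕ) (a : ℤ) (β : ℝ), 0 < q ∧ IsCoprime a q ∧ (q : ℝ) ≤ D ^ K ∧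
        |β| * (M : ℝ) ^ h.natDegree ≤ D ^ K ∧ θ = a / q + β := by
  obtain ⟨K, hK⟩ := weyl (k₀ - 1)
  refine ⟨K + 1, fun h hk0 hk hl => ?_⟩
  obtain ⟨k, rfl⟩ : ∃ k, k₀ = k + 1 := ⟨k₀ - 1, by omega⟩
  have hk1 := hk0
  rw [Nat.add_sub_cancel] at hK
  obtain ⟨l, hl1⟩ : ∃ l : ℕ, h.leadingCoeff = l := ⟨h.leadingCoeff.toNat, by omega⟩
  have hl0 : 0 < l := by omega
  obtain ⟨L, hL⟩ : ∃ L : ℕ, L = (k + 1).factorial * l := ⟨_, rfl⟩
  have hL0 : 0 < L := hL ▸ Nat.mul_pos (Nat.factorial_pos _) hl0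
  refine ⟨L, fun n₀ M D θ hM hD hDL => ?_⟩
  rw [or_iff_not_imp_left]
  intro hn
  push Not at hn
  obtain ⟨η, m, hm, hS⟩ := hn
  have hD0 : 0 < D := by linarith
  have hD1 : 1 ≤ D := by linarith
  have hM0 : (0 : ℝ) < M := Nat.cast_pos.2 hM
  obtain ⟨p, hp⟩ : ∃ p : ℝ[X], p = Polynomial.C θ * h.map (Int.castRingHom ℝ) +
    Polynomial.C η * X := ⟨_, rfl⟩
  have p1 : p.natDegree ≤ k + 1 := by
    rw [hp]
    refine (natDegree_add_le _ _).trans (max_le ?_ ?_)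
    · exact (natDegree_C_mul_le _ _).trans (natDegree_map_le.trans hk1.le)
    · exact (natDegree_C_mul_le _ _).trans (natDegree_X_le.trans (by omega))
  have p2 : ((k + 1).factorial : ℝ) * p.coeff (k + 1) = L * θ := by
    have e : h.coeff (k + 1) = l := by rw [← hk1, ← hl1, leadingCoeff]
    rw [hp, coeff_add, coeff_C_mul, coeff_C_mul, coeff_map, e, coeff_X, if_neg (by omega), hL]
    simp only [eq_intCast, Int.cast_natCast, Nat.cast_mul]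
    ring
  have p3 : ∀ n : ℕ, p.eval ((n : ℤ) : ℝ) = θ * val h n + η * n := fun n => by
    rw [hp, eval_add, eval_mul, eval_mul, eval_C, eval_C, eval_X, eval_intCast_map]
    simp [val]
  have hpd := pd_poly (k + 1) p p1
  rw [p2] at hpd
  obtain ⟨q₁, hq₁, hq₁D, hq₁a⟩ := hK _ _ hpd M n₀ m D hM (by omega) hD (by
    rw [sum_di fun n => ee (p.eval (n : ℝ))]
    simp only [p3]
    rw [div_lt_iff₀' hD0] at hS
    exact hS.le)
  rw [← mul_assoc, ← Nat.cast_mul] at hq₁a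
  generalize round (((q₁ * L : ℕ) : ℝ) * θ) = a₀ at hq₁a
  have hq₀ : 0 < q₁ * L := Nat.mul_pos hq₁ hL0
  have hq₀' : (1 : ℝ) ≤ (q₁ * L : ℕ) := Nat.one_le_cast.2 hq₀
  obtain ⟨r, hr⟩ : ∃ r : ℚ, r = Rat.divInt a₀ (q₁ * L : ℕ) := ⟨_, rfl⟩
  have r1 : (r.num : ℝ) / r.den = a₀ / (q₁ * L : ℕ) := by
    rw [← Rat.cast_def, hr, Rat.cast_divInt, Int.cast_natCast]
  have r2 : r.den ≤ q₁ * L := by
    have h1 := Rat.den_dvd a₀ (q₁ * L : ℕ)
    rw [← hr] at h1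
    exact Nat.le_of_dvd hq₀ (Int.natCast_dvd_natCast.1 h1)
  refine ⟨r.den, r.num, θ - r.num / r.den, r.den_pos, Rat.isCoprime_num_den r, ?_, ?_, by ring⟩
  · have h1 : (L : ℝ) ≤ D ^ 1 := by rwa [pow_one]
    rw [pow_add]
    refine (Nat.cast_le.2 r2).trans ?_
    rw [Nat.cast_mul]
    exact mul_le_mul hq₁D h1 (Nat.cast_nonneg _) (by positivity)
  · rw [hk1, ← le_div_iff₀ (by positivity), r1]
    have h1 : θ - a₀ / (q₁ * L : ℕ) = ((q₁ * L : ℕ) * θ - a₀) / (q₁ * L : ℕ) := by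
      field_simp
    rw [h1, abs_div, Nat.abs_cast]
    refine (div_le_self (abs_nonneg _) hq₀').trans (hq₁a.trans ?_)
    exact div_le_div_of_nonneg_right (pow_le_pow_right₀ hD1 (Nat.le_add_right _ _)) (by positivity)

end Vale.Agent.P042.S
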