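import Vale.Agent.P042.U.GlobU

/-! # P042 X/Glob: the singular series with a constant that depends only on the degree. -/

namespace Vale.Agent.P042.S

open Finset Polynomial

theorem globX {η : ℝ} (h0 : 0 < η) (h1 : η ≤ 1) {k : ℕ} (hk0 : 1 ≤ k) : ∃ A : ℕ, ∀ h : ℤ[X],
    h.natDegree = k → (∀ q : ℕ, 1 ≤ q → ∃ t : ℤ, (q : ℤ) ∣ h.eval t) → ∃ L₁ : ℕ, ∀ L : ℕ, L₁ ≤ L →
      1 ≤ L → ∃ R : ℕ, 2 ^ L ≤ R ∧ R ≤ 2 ^ (A * L ^ 2) ∧
        ∀ E : ℕ, ∃ w, Ser h η (2 * (1 / 2) ^ L) R E w := by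
  obtain ⟨c, Λ, l₀, hc, hΛ, hloc⟩ := locU k
  obtain ⟨W, hW2, hpar⟩ := parU l₀ hc hΛ h0 hk0
  obtain ⟨A, hA⟩ := hpar 0
  refine ⟨A * 4, fun h hdeg hint => ?_⟩
  subst hdeg
  have hk := hk0
  have hl : 1 ≤ h.leadingCoeff.natAbs := Int.natAbs_pos.2 (leadingCoeff_ne_zero.2 fun e => by
    rw [e, natDegree_zero] at hk
    omega)
  refine ⟨⌈2 * (h.leadingCoeff.natAbs * Real.log h.leadingCoeff.natAbs + 6 * Λ * W)⌉₊,
    fun L hL₁ hL => ?_⟩
  obtain ⟨b, κ, b1', b2', k0, k1, k2, k3, k4'⟩ := hA (2 * L) (by omega)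
  have b1 : L ≤ b := by omega
  have b2 : b ≤ A * 4 * L ^ 2 := b2'.trans_eq (by ring)
  have k4 : ∀ x : ℝ, b * Real.log 2 ≤ x →
      (h.leadingCoeff.natAbs * Real.log h.leadingCoeff.natAbs + 6 * Λ * W) +
        2 * Λ * (9 * √x / Real.log W + 200 * (κ * l₀) ^ 3 * x) - κ / h.natDegree * x ≤
          -(L * Real.log 2) := fun x hx => by
    have h2 := k4' x hx
    have h3 := Nat.ceil_le.1 hL₁
    have h4 := mul_le_mul_of_nonneg_left Real.log_two_gt_d9.le (Nat.cast_nonneg L : (0 : ℝ) ≤ L)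
    have h5 : (0 : ℝ) ≤ L := Nat.cast_nonneg L
    push_cast at h2
    linarith
  refine ⟨2 ^ b, Nat.pow_le_pow_right two_pos b1, Nat.pow_le_pow_right two_pos b2, fun E => ?_⟩
  obtain ⟨z, hz⟩ := hint E.factorial E.factorial_pos
  have hdv : ∀ p : ℕ, p.Prime → ∀ j : ℕ, p ^ j ≤ E → ((p ^ j : ℕ) : ℤ) ∣ h.eval z :=
    fun p hp j hj => (Int.natCast_dvd_natCast.2 (Nat.dvd_factorial (pow_pos hp.pos j) hj)).trans hz
  have θ0 : ∀ p : ℕ, (0 : ℝ) ≤ (p : ℝ) ^ (-κ) := fun p => by positivity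
  have θ1 : ∀ p : ℕ, (p : ℝ) ^ (-κ) ≤ 1 := fun p => by
    rcases Nat.eq_zero_or_pos p with rfl | hp
    · rw [Nat.cast_zero]; exact Real.zero_rpow_le_one _
    · exact Real.rpow_le_one_of_one_le_of_nonpos (by exact_mod_cast hp) (by linarith)
  have hW : LW (DT (fun p => (p : ℝ) ^ (-κ)) (fun _ => E) z) := DT_lw θ0 θ1
  have hD : ∀ p : ℕ, p.Prime → p ≤ 0 → ∀ i, 0 < i → ∀ n,
      DT (fun p => (p : ℝ) ^ (-κ)) (fun _ => E) z p i n = 0 :=
    fun p hp h0 => absurd hp.pos (by omega)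
  have hl2 := fun (p : ℕ) (hp : p.Prime) (j : ℕ) (a : ℤ) (hj : p ^ j ≤ E) (ha : IsCoprime a p) =>
    hloc h hk le_rfl κ k0 k1 E z p hp j a hj (hdv p hp j hj) ha
  have s1 := prod_sec2 (h := h) hW
    (ξ := fun p => (1 - (p : ℝ) ^ (-κ)) * (Λ * (p : ℝ) ^ (κ * l₀ - 1 / 2))) (E := E)
    (fun p => mul_nonneg (sub_nonneg.2 (θ1 p)) (by positivity))
    fun p hp j a hj ha => (hl2 p hp j a hj ha).1
  have s2 := prod_dec2 (h := h) hW
    (b := fun p => (if p ≤ h.leadingCoeff.natAbs then (h.leadingCoeff.natAbs : ℝ) else 1) *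
      (1 + 2 * (Λ * (p : ℝ) ^ (κ * l₀ - 1 / 2)))) (E := E)
    (fun p => mul_nonneg (by split_ifs <;> positivity) (by positivity))
    fun p hp j a hj ha => (hl2 p hp j a hj ha).2
  have e0 := sg_one (h := h) (R₂ := 2 ^ b) hW Nat.one_le_two_pow hD
  rw [pow_zero, one_mul] at e0
  refine ⟨wT (DT (fun p => (p : ℝ) ^ (-κ)) (fun _ => E) z) 1 (2 ^ b), wT_wk hW _ _, e0,
    fun q hq hE a ha => ?_⟩
  obtain ⟨a₁, a₂, -, a2, hS⟩ := sg_split (h := h) (R₂ := 2 ^ b) (q₁ := 1) hW hD one_pos hq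
    (Nat.coprime_one_left q) (fun p hp h1 => absurd (Nat.le_of_dvd one_pos h1) hp.one_lt.not_ge)
    (fun p hp _ => hp.pos) (a := a) (by rwa [one_mul])
  rw [pow_zero, one_mul, one_mul, Nat.divisors_one, sum_singleton, tm_one, one_mul] at hS
  rw [hS]
  have t0 : 0 ≤ κ * l₀ := by positivity
  have q0 : (0 : ℝ) < q := by exact_mod_cast hq
  have l2 : Real.log ((2 ^ b : ℕ) : ℝ) = b * Real.log 2 := by
    rw [Nat.cast_pow, Real.log_pow, Nat.cast_ofNat]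
  have hε : (0 : ℝ) ≤ (1 / 2) ^ L := by positivity
  rcases le_or_gt q (2 ^ b) with hq2 | hq2
  · rw [filter_true_of_mem fun d hd => (Nat.divisor_le hd).trans hq2]
    obtain ⟨s, s0, s1, s2⟩ := (s1 q hq hE a₂ a2).fin (ang_le hq hΛ k0 t0 k2 h1
      (l2 ▸ Real.log_le_log q0 (by exact_mod_cast hq2)) k3) h0.le h1 le_rfl
    exact ⟨s, s0, s1, by linarith⟩
  · refine ⟨0, le_rfl, zero_le_one, ?_⟩
    rw [Complex.ofReal_zero, sub_zero, mul_zero, zero_add]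
    refine (norm_sum_le _ _).trans ((sum_le_sum_of_subset_of_nonneg (filter_subset _ _)
      fun _ _ _ => norm_nonneg _).trans ((s2 q hq hE a₂ a2).trans ?_))
    refine (mul_le_mul_of_nonneg_right (abs_le' hq hΛ t0 k2 hW2 hl) (by positivity)).trans ?_
    have e1 := k4 (Real.log q)
      (l2 ▸ Real.log_le_log (by positivity) (by exact_mod_cast hq2.le))
    have e2 : Real.exp (-(L * Real.log 2)) = (1 / 2) ^ L := by
      rw [Real.exp_neg, Real.exp_nat_mul, Real.exp_log two_pos, one_div, inv_pow]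
    rw [Real.rpow_def_of_pos q0, ← Real.exp_add]
    refine (Real.exp_le_exp.2 (le_trans (le_of_eq ?_) e1)).trans ?_
    · ring
    · linarith

end Vale.Agent.P042.S
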