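import Vale.Agent.P042.X.Dich
import Vale.Agent.P042.T.KernT

/-! # P042 X/Kern: the kernel with an exponent that depends only on the degree. -/

namespace Vale.Agent.P042.S

open Finset Polynomial

theorem kernX (k : ℕ) : ∃ K : ℕ, ∀ h : ℤ[X], h.natDegree = k → 2 ≤ k → 0 < h.leadingCoeff →
    ∀ (n₀ : ℕ) (B : ℝ), Gro (val h) k n₀ B → ∀ T : ℕ, 2 * B ^ 2 ≤ T →
    ∃ (L₁ : ℕ) (C : ℝ), 0 < C ∧ ∀ L R : ℕ, L₁ ≤ L → 1 ≤ L → 2 ^ L ≤ R → n₀ ≤ R → ∃ E M : ℕ, n₀ ≤ M ∧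
      T ^ (2 * L) * M ≤ (R * 2 ^ L ^ 2) ^ K ∧ ∀ w, Ser h (1 / 500) (2 * (1 / 2) ^ L) R E w →
        (∀ θ : ℝ, -(C * (1 / 2) ^ L * (3 / 2) ^ (2 * L)) ≤ (Tm h w n₀ M T R (2 * L) θ).re) ∧
        (1 / 4 - C * (1 / 2) ^ L) * (3 / 2) ^ (2 * L) ≤ (Tm h w n₀ M T R (2 * L) 0).re := by
  obtain ⟨K₀, hK⟩ := dichot2 k
  refine ⟨2 + (4 + 4 * K₀ + (4 * K₀ + 2 * k)), fun h hdeg hk hl n₀ B hG T hT => ?_⟩
  obtain ⟨D₀, hK⟩ := hK h hdeg hk hl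
  rw [hdeg] at hK
  have hB := hG.one
  have hT1 : 1 ≤ T := by
    have : (1 : ℝ) ≤ T := by nlinarith
    exact_mod_cast this
  obtain ⟨C₁, hC₁⟩ : ∃ C₁, C₁ = 84 * B ^ 3 + 4 * B ^ 2 * (n₀ : ℝ) ^ k := ⟨_, rfl⟩
  have hB3 : 0 < B ^ 3 := by positivity
  have hC7 : 7 * B ^ 3 ≤ C₁ := by
    have : 0 ≤ 4 * B ^ 2 * (n₀ : ℝ) ^ k := by positivity
    linarith
  refine ⟨T + D₀, 7 + 3 * C₁, by linarith, ?_⟩
  intro L R hL₁ hL hR hn
  have hR2 : 2 ≤ R := le_trans (by simpa using Nat.pow_le_pow_right two_pos hL) hR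
  have hR1 : 1 ≤ R := by omega
  have hR' : R ≤ R * 2 ^ L ^ 2 := Nat.le_mul_of_pos_right _ (by positivity)
  have hU : T ^ (2 * L) ≤ (R * 2 ^ L ^ 2) ^ 2 := by
    have h1 : T ≤ 2 ^ L := (by omega : T ≤ L).trans Nat.lt_two_pow_self.le
    calc T ^ (2 * L) ≤ (2 ^ L) ^ (2 * L) := Nat.pow_le_pow_left h1 _
      _ = (2 ^ L ^ 2) ^ 2 := by
          rw [← pow_mul, ← pow_mul]
          congr 1
          ring
      _ ≤ _ := Nat.pow_le_pow_left (Nat.le_mul_of_pos_left _ hR1) 2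
  obtain ⟨E, hE⟩ : ∃ E, E = (R ^ 4) ^ K₀ := ⟨_, rfl⟩
  have hE1 : 1 ≤ E := hE ▸ Nat.one_le_pow _ _ (by positivity)
  have hE' : 1 ≤ E * (T ^ (2 * L)) ^ k := Nat.mul_pos hE1 (by positivity)
  obtain ⟨M, hM⟩ : ∃ M, M = R ^ 4 * E * (E * (T ^ (2 * L)) ^ k) := ⟨_, rfl⟩
  have hM1 : R ^ 4 * E ≤ M := hM ▸ Nat.le_mul_of_pos_right _ hE'
  have hM2 : R ^ 4 ≤ M := (Nat.le_mul_of_pos_right _ hE1).trans hM1
  have h16 : 16 ≤ R ^ 4 := Nat.pow_le_pow_left hR2 4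
  have hnM : n₀ ≤ M := hn.trans ((Nat.le_self_pow (by norm_num) R).trans hM2)
  refine ⟨E, M, hnM, ?_, fun w hS => ?_⟩
  · generalize R * 2 ^ L ^ 2 = Z at hR' hU
    rw [hM, hE, pow_add, pow_add, pow_add, pow_add, pow_mul Z 4, pow_mul Z 2]
    gcongr
  obtain ⟨x, hx⟩ : ∃ x : ℝ, x = (1 / 2) ^ L := ⟨_, rfl⟩
  obtain ⟨y, hy⟩ : ∃ y : ℝ, y = (3 / 2) ^ (2 * L) := ⟨_, rfl⟩
  have x0 : 0 < x := by rw [hx]; positivity
  have y0 : 0 < y := by rw [hy]; positivity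
  have x1 : 2 * x ≤ 1 := by
    have : x ≤ (1 / 2) ^ 1 := hx ▸ pow_le_pow_of_le_one (by norm_num) (by norm_num) hL
    linarith
  have xy : 1 ≤ x * y := by
    rw [hx, hy, pow_mul, ← mul_pow]
    exact one_le_pow₀ (by norm_num)
  have xR : ∀ c : ℝ, 0 ≤ c → c / R * y ≤ c * (x * y) := fun c hc => by
    have h1 : ((2 : ℝ) ^ L) ≤ R := by exact_mod_cast hR
    have h2 : (R : ℝ)⁻¹ ≤ x := by
      rw [hx, one_div, inv_pow]
      exact inv_anti₀ (by positivity) h1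
    rw [div_eq_mul_inv, mul_assoc]
    gcongr
  have a1 := xR C₁ (by linarith)
  have a2 := xR (7 * B ^ 3) (by linarith)
  have a3 : 7 * B ^ 3 * (x * y) ≤ C₁ * (x * y) := by gcongr
  rw [← hx] at hS
  rw [← hx, ← hy]
  refine ⟨fun θ => ?_, ?_⟩
  · by_cases hX : ∀ i, i ≤ 2 * L → ∀ (η : ℝ) (m : ℕ), m ≤ T ^ i * M →
        ‖∑ n ∈ Ico n₀ m, ee (θ * val h n + η * n)‖ ≤ ((T ^ i * M : ℕ) : ℝ) / (R : ℝ) ^ 4
    · have := tm_minor hG (by omega) hT hS.wk hnM hR1 hX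
      rw [← hy] at this
      nlinarith
    · obtain ⟨i, hi⟩ := not_forall.1 hX
      have hD : (2 : ℝ) ≤ (R : ℝ) ^ 4 := by exact_mod_cast (by omega : 2 ≤ R ^ 4)
      have hD0 : (D₀ : ℝ) ≤ (R : ℝ) ^ 4 := by
        have h1 : D₀ ≤ R := ((by omega : D₀ ≤ L).trans Nat.lt_two_pow_self.le).trans hR
        exact_mod_cast h1.trans (Nat.le_self_pow (by norm_num) R)
      obtain ⟨q, a, β, hq, ha, hqE, hβ, rfl⟩ := (hK n₀ (T ^ i * M) _ θ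
        (Nat.mul_pos (by positivity) (by omega)) hD hD0).resolve_left fun h' => hi fun _ => h'
      have e1 : ((R : ℝ) ^ 4) ^ K₀ = E := by rw [hE]; push_cast; rfl
      rw [e1] at hqE hβ
      have b := fun j (hj : j ≤ 2 * L) => beta_tke (W := T ^ j) (by omega) hE1
        (Nat.one_le_pow _ _ hT1) (Nat.pow_le_pow_right hT1 hj)
        ((Nat.mul_le_mul_right E h16).trans hM1) hβ
      have := tm_major hG (by omega) hT hS (by linarith) x1 hnM hR1 hq (by exact_mod_cast hqE) ha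
        (by exact_mod_cast hE') (fun j hj => (b j hj).1) (b 0 (by omega)).2
        (by rw [hM]; push_cast; exact le_rfl)
      rw [← hy, ← hC₁] at this
      nlinarith
  · have := tm_zero (I := 2 * L) hG (by omega) hT hS hnM hR1 (by exact_mod_cast hM2)
    rw [← hy, ← hC₁] at this
    nlinarith

end Vale.Agent.P042.S
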