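import Vale.Agent.P042.X.Kern
import Vale.Agent.P042.X.Glob
import Vale.Agent.P042.U.Main

/-! # P042 X/Main: assembly. -/

namespace Vale.Agent.P042.S

open Finset Polynomial

theorem mainX {k : ℕ} (hk : 2 ≤ k) : ∃ c : ℝ, 0 < c ∧ ∀ h : ℤ[X], h.natDegree = k →
    0 < h.leadingCoeff → (∀ q : ℕ, 1 ≤ q → ∃ t : ℤ, (q : ℤ) ∣ h.eval t) → ∃ C : ℝ,
      ∀ (N : ℕ) (A : Finset ℕ), A ⊆ Icc 1 N →
        (∀ a ∈ A, ∀ b ∈ A, ∀ n : ℕ, 1 ≤ n → (a : ℤ) - b = h.eval (n : ℤ) → a = b) →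
          (A.card : ℝ) ≤ C * N * Real.exp (-(c * √(Real.log N))) := by
  obtain ⟨K, hker⟩ := kernX k
  obtain ⟨A₀, hA₀⟩ := globX (η := 1 / 500) (by norm_num) (by norm_num) (by omega : 1 ≤ k)
  obtain ⟨c, hc, has⟩ := asym2 (1 + (A₀ + 1) * K * k)
  refine ⟨c, hc, fun h hdeg hl hi => ?_⟩
  obtain ⟨n₀, B, hn, hG⟩ := gro_poly (hdeg ▸ hk) hl 1
  rw [hdeg] at hG
  have hT : 2 * B ^ 2 ≤ (⌈2 * B ^ 2⌉₊ : ℕ) := Nat.le_ceil _
  have hT1 : 1 ≤ ⌈2 * B ^ 2⌉₊ := Nat.ceil_pos.mpr (by have := hG.one; positivity)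
  obtain ⟨L₁, C, hC, hker⟩ := hker h hdeg hk hl n₀ B hG _ hT
  obtain ⟨L₂, hA₀⟩ := hA₀ h hdeg hi
  obtain ⟨b, hb⟩ := pow_unbounded_of_one_lt B (show (1 : ℝ) < 2 by norm_num)
  obtain ⟨L₀, hL₀⟩ := half_tma hC
  obtain ⟨C', hC'⟩ := has (L₀ + L₁ + L₂ + b + n₀ + 1) (16 * C)
  refine ⟨C', fun N A hA hf => hC' N _ ?_ fun L hL hN => ?_⟩
  · have := card_le_card hA
    rw [Nat.card_Icc, Nat.add_sub_cancel] at this
    exact_mod_cast this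
  · obtain ⟨R, hR1, hR2, hw⟩ := hA₀ L (by omega) (by omega)
    have hLR : L < R := Nat.lt_two_pow_self.trans_le hR1
    obtain ⟨E, M, hM, hTM, hs⟩ := hker L R (by omega) (by omega) hR1 (by omega)
    obtain ⟨w, hw⟩ := hw E
    obtain ⟨h1, h2⟩ := hs w hw
    have hb2 : B ≤ 2 ^ L ^ 2 := hb.le.trans (pow_le_pow_right₀ (by norm_num)
      ((by omega : b ≤ L).trans (Nat.le_self_pow (by norm_num) L)))
    have hR3 : R * 2 ^ L ^ 2 ≤ 2 ^ ((A₀ + 1) * L ^ 2 * 1 ^ 0) := by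
      rw [pow_zero, mul_one, add_mul, one_mul, pow_add]
      exact Nat.mul_le_mul_right _ hR2
    have hN' : 2 ^ ((L ^ 2 + (A₀ + 1) * L ^ 2 * K * k) * 1 ^ 0) ≤ N :=
      le_trans (le_of_eq (by congr 1; ring)) hN
    have h3 := tm_del hG hT1 hM hA (size_tma hb2 le_rfl hTM hR3 hN')
      (fun a ha b hb n hn' => hf a ha b hb n (hn.trans hn')) (by positivity) h1
    have h4 := hL₀ L (by omega)
    have h5 : (0 : ℝ) < (3 / 2) ^ (2 * L) := by positivity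
    have h6 : (0 : ℝ) ≤ A.card := Nat.cast_nonneg _
    have h7 : (1 / 8 : ℝ) * (3 / 2) ^ (2 * L) ≤ (Tm h w n₀ M ⌈2 * B ^ 2⌉₊ R (2 * L) 0).re :=
      (mul_le_mul_of_nonneg_right (by linarith) h5.le).trans h2
    have h8 := (mul_le_mul_of_nonneg_left h7 h6).trans h3
    refine le_of_mul_le_mul_right ?_ h5
    linarith

end Vale.Agent.P042.S
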